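import Mathlib
import Vale.Agent.Lib.P098.Var.Base
import Vale.Agent.Lib.P098.Sta.Bd
import Vale.Agent.Lib.P098.Sta.Est
import Vale.Agent.Lib.P098.Sta.Main
import Vale.Agent.Lib.P098.Sta.Fv0

/-!
# P098: gradients and Laplacians in coordinates
-/

open MeasureTheory Set Filter Topology
open scoped ContDiff ENNReal

namespace Vale.Agent.P098D3

open Vale.Agent.P098

variable {d : ℕ} {u w : Ed d → ℝ} {U : Set (Ed d)} {x : Ed d}

/-- half the square of the gradient -/
noncomputable def hg (u : Ed d → ℝ) (x : Ed d) : ℝ := ‖gradient u x‖ ^ 2 / 2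

theorem gradient_eq (f : Ed d → ℝ) (x : Ed d) : gradient f x = gr f x := by
  have h : fderiv ℝ f x = InnerProductSpace.toDual ℝ (Ed d) (gr f x) := by
    ext v
    rw [fderiv_apply_eq, InnerProductSpace.toDual_apply_apply, PiLp.inner_apply]
    refine Finset.sum_congr rfl fun i _ => ?_
    simp [gr]
  unfold gradient
  rw [h, LinearIsometryEquiv.symm_apply_apply]

theorem norm_gradient (f : Ed d → ℝ) (x : Ed d) : ‖gradient f x‖ = ‖fderiv ℝ f x‖ := by
  unfold gradient
  rw [LinearIsometryEquiv.norm_map]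

theorem norm_gradient_sq (f : Ed d → ℝ) (x : Ed d) :
    ‖gradient f x‖ ^ 2 = ∑ i, pd i f x ^ 2 := by
  rw [gradient_eq, norm_gr_sq]

theorem inner_gradient (f g : Ed d → ℝ) (x : Ed d) :
    inner ℝ (gradient f x) (gradient g x) = ∑ i, pd i f x * pd i g x := by
  rw [gradient_eq, gradient_eq, PiLp.inner_apply]
  refine Finset.sum_congr rfl fun i _ => ?_
  simp only [gr]
  rw [real_inner_eq_re_inner]
  simp [mul_comm]

theorem laplacian_eq {f : Ed d → ℝ} (hf : ContDiffAt ℝ 2 f x) :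
    Laplacian.laplacian f x = ∑ i, pd i (pd i f) x := by
  rw [congrFun (InnerProductSpace.laplacian_eq_iteratedFDeriv_orthonormalBasis f
    (EuclideanSpace.basisFun (Fin d) ℝ)) x]
  refine Finset.sum_congr rfl fun i _ => ?_
  have h0 : ContDiffAt ℝ 1 (fderiv ℝ f) x := hf.fderiv_right (by norm_num)
  have h1 : DifferentiableAt ℝ (fderiv ℝ f) x := h0.differentiableAt (by norm_num)
  rw [iteratedFDeriv_two_apply]
  unfold pd
  rw [fderiv_clm_apply h1 (differentiableAt_const _)]
  simp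

/-- the equations in terms of `u` only -/
theorem smoothCone_of (h : Cone0 u w U) (h1 : ∀ x, 0 < u x → Laplacian.laplacian u x = 0)
    (h2 : ∀ x ∈ frontier {y | 0 < u y}, x ≠ 0 →
      Tendsto (fun y => ‖gradient u y‖) (𝓝[{y | 0 < u y}] x) (𝓝 1)) : SmoothCone u w U where
  hom := h.hom
  cont := h.cont
  nonneg := h.nonneg
  isOpen := h.isOpen
  sub := h.sub
  smooth := h.smooth
  eq := h.eq
  harm := by
    intro x hx
    have hw : ContDiffAt ℝ ∞ w x := h.smoothAt (h.pos_sub hx)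
    have e : w =ᶠ[𝓝 x] u := h.eventually_eq hx
    unfold lap
    rw [← laplacian_eq (hw.of_le (by norm_cast)),
      (InnerProductSpace.laplacian_congr_nhds e).self_of_nhds]
    exact h1 x hx
  grad := by
    intro x hx hx0
    have hw := h.smoothAt (h.frontier_sub hx hx0)
    have : (𝓝[Pos u] x).NeBot := mem_closure_iff_nhdsWithin_neBot.1 (frontier_subset_closure hx)
    have hc : ContinuousAt (fderiv ℝ w) x := (hw.fderiv_right (m := 0) (by norm_cast)).continuousAt
    have t1 : Tendsto (fun y => ‖fderiv ℝ w y‖) (𝓝[Pos u] x) (𝓝 ‖fderiv ℝ w x‖) :=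
      hc.norm.tendsto.mono_left nhdsWithin_le_nhds
    have t2 : (fun y => ‖gradient u y‖) =ᶠ[𝓝[Pos u] x] fun y => ‖fderiv ℝ w y‖ := by
      filter_upwards [self_mem_nhdsWithin] with y hy
      rw [norm_gradient, (h.eventually_eq hy).fderiv_eq]
    have h3 : ‖fderiv ℝ w x‖ = 1 := tendsto_nhds_unique t1 ((h2 x hx hx0).congr' t2)
    rw [← norm_fderiv_sq, h3]
    norm_num

theorem grad_sq_eventually (h : SmoothCone u w U) (hx : x ∈ Pos u) :
    hg u =ᶠ[𝓝 x] fun y => 1 / 2 - Wd w y := by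
  filter_upwards [h.isOpen_pos.mem_nhds hx] with y hy
  have e : ∀ i, pd i u y = pd i w y := fun i => (pd_congr (h.eventually_eq hy)).symm
  unfold hg
  rw [norm_gradient_sq]
  unfold Wd
  simp only [e]
  ring

theorem pd_grad_sq (h : SmoothCone u w U) (hx : x ∈ Pos u) (i : Fin d) :
    pd i (hg u) x = ∑ j, pd i (pd j w) x * pd j w x := by
  have hxU := h.pos_sub hx
  have hd : DifferentiableAt ℝ (Wd w) x :=
    (h.Wd_smooth.contDiffAt (h.isOpen.mem_nhds hxU)).differentiableAt (by simp)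
  rw [pd_congr (grad_sq_eventually h hx), pd_sub (differentiableAt_const _) hd, pd_const,
    h.pd_Wd hxU]
  ring

theorem laplacian_grad_sq (h : SmoothCone u w U) (hx : x ∈ Pos u) :
    Laplacian.laplacian (hg u) x =
      ∑ i, ∑ j, pd i (pd j w) x ^ 2 := by
  have hxU := h.pos_sub hx
  have hW : ContDiffAt ℝ ∞ (Wd w) x := h.Wd_smooth.contDiffAt (h.isOpen.mem_nhds hxU)
  have hW2 : ContDiffAt ℝ 2 (fun y => 1 / 2 - Wd w y) x :=
    (contDiffAt_const.sub hW).of_le (by norm_cast)
  rw [(InnerProductSpace.laplacian_congr_nhds (grad_sq_eventually h hx)).self_of_nhds,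
    laplacian_eq hW2]
  have e : ∀ i, pd i (pd i (fun y => 1 / 2 - Wd w y)) x = - pd i (pd i (Wd w)) x := by
    intro i
    have e1 : pd i (fun y => 1 / 2 - Wd w y) =ᶠ[𝓝 x] fun y => - pd i (Wd w) y := by
      filter_upwards [h.isOpen.mem_nhds hxU] with y hy
      have hd : DifferentiableAt ℝ (Wd w) y :=
        (h.Wd_smooth.contDiffAt (h.isOpen.mem_nhds hy)).differentiableAt (by simp)
      rw [pd_sub (differentiableAt_const _) hd, pd_const]
      ring
    rw [pd_congr e1, pd_neg]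
  rw [Finset.sum_congr rfl fun i _ => e i, Finset.sum_neg_distrib, h.lap_Wd hx, neg_neg]

/-- the stability inequality in terms of `u` only -/
theorem stab_of (h : SmoothCone u w U)
    (hst : ∀ φ : Ed d → ℝ, ContDiff ℝ ∞ φ → (∀ x, 0 ≤ φ x) → HasCompactSupport φ →
      (0 : Ed d) ∉ tsupport φ →
      ∫ x in {y | 0 < u y}, (φ x ^ 2 * Laplacian.laplacian (hg u) x +
        2 * φ x * inner ℝ (gradient φ x) (gradient (hg u) x)) ≤
      ∫ x in {y | 0 < u y}, ‖gradient φ x‖ ^ 2) : Stab u w := by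
  intro φ hφ hφ0 hφs h0
  have h1 := hst φ hφ hφ0 hφs h0
  have hm : MeasurableSet (Pos u) := h.isOpen_pos.measurableSet
  have e1 : ∫ x in Pos u, (φ x ^ 2 * (∑ i, ∑ j, pd i (pd j w) x ^ 2) +
        2 * φ x * ∑ i, ∑ j, pd i φ x * pd i (pd j w) x * pd j w x) =
      ∫ x in {y | 0 < u y}, (φ x ^ 2 * Laplacian.laplacian (hg u) x +
        2 * φ x * inner ℝ (gradient φ x) (gradient (hg u) x)) := by
    refine setIntegral_congr_fun hm fun x hx => ?_
    beta_reduce
    rw [laplacian_grad_sq h hx, inner_gradient]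
    congr 2
    refine Finset.sum_congr rfl fun i _ => ?_
    rw [pd_grad_sq h hx, Finset.mul_sum]
    exact Finset.sum_congr rfl fun j _ => mul_assoc _ _ _
  have e2 : ∫ x in Pos u, ∑ i, pd i φ x ^ 2 = ∫ x in {y | 0 < u y}, ‖gradient φ x‖ ^ 2 := by
    refine setIntegral_congr_fun hm fun x _ => ?_
    beta_reduce
    rw [norm_gradient_sq]
  rw [e1, e2]
  exact h1

end Vale.Agent.P098D3
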