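import Mathlib
import Vale.Agent.Lib.P219.Ce.Poly
import Vale.Agent.Lib.P098.Cert.K5
import Vale.Agent.Lib.P098.Cert.V5

/-!
# P098: the curvature inequality for the certificate `K5` in dimensions four and three
-/

open Vale.Agent.Lib.P219.Bern

namespace Vale.Agent.P098D3

open Vale.Agent.P098

noncomputable section

/-- `5 * 10^14` times `500 V`, dimension four -/
def vV4 : P3 :=
  R3.add (im 2 (R3.mul (R3.mul vZ vZ) (R3.add (im 50 (vF vc1 vq1)) (R3.mul vC (vF vc2 vq2)))))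
    (R3.mul vS (R3.add (im 1500 vcG) (R3.add (R3.ofI (-250250000000000))
      (im (-1) (R3.mul vZ (R3.add (im 3 (vF vc0 vq0)) (vF vc2 vq2)))))))

/-- `5 * 10^14` times `500 V`, dimension three -/
def vV3 : P3 :=
  R3.add (im 2 (R3.mul (R3.mul vZ vZ) (R3.add (im 50 (vF vc1 vq1)) (R3.mul vC (vF vc2 vq2)))))
    (R3.mul vS (R3.add (im 1000 vcG) (R3.add (R3.ofI (-62750000000000))
      (im (-1) (R3.mul vZ (R3.add (im 2 (vF vc0 vq0)) (vF vc2 vq2)))))))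

set_option maxRecDepth 100000 in
theorem vV4_chk : chk 200 3 5 1 1 (.n3 (.n3 (.base (.n1 .leaf .leaf)) (.base (.n1 .leaf .leaf)))
    (.base (.n1 (.n1 .leaf (.n1 .leaf (.n1 .leaf .leaf))) .leaf))) vV4 = true := by decide +kernel

set_option maxRecDepth 100000 in
theorem vV3_chk : chk 200 3 5 1 1 (.n3 (.n3 (.base .leaf) (.base (.n1 .leaf .leaf)))
    (.base (.n1 (.n1 .leaf (.n1 .leaf (.n1 .leaf .leaf))) .leaf))) vV3 = true := by decide +kernel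

theorem V4_nonneg (y σ w : ℝ) (hy : 0 ≤ y) (hy1 : y ≤ 1) (hσ : 0 ≤ σ) (hσ1 : σ ≤ 1) (hw : 0 ≤ w)
    (hw1 : w ≤ 1) : 0 ≤ ev3 y σ w vV4 :=
  chk_sound 200 3 5 1 1 _ vV4 vV4_chk y σ w hy (by simpa using hy1) hσ (by simpa using hσ1) hw hw1

theorem V3_nonneg (y σ w : ℝ) (hy : 0 ≤ y) (hy1 : y ≤ 1) (hσ : 0 ≤ σ) (hσ1 : σ ≤ 1) (hw : 0 ≤ w)
    (hw1 : w ≤ 1) : 0 ≤ ev3 y σ w vV3 :=
  chk_sound 200 3 5 1 1 _ vV3 vV3_chk y σ w hy (by simpa using hy1) hσ (by simpa using hσ1) hw hw1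

theorem ev_vZ (y σ w z : ℝ) (hz : z = 13 / 10 * y) : ev3 y σ w vZ = 10 * z := by
  unfold vZ
  rw [ev_im, ev_vX1, hz]
  push_cast
  ring

theorem ev_vS (y σ w z s : ℝ) (hz : z = 13 / 10 * y) (hs : s = (1 - 3 / 5 * z ^ 2) * σ) :
    ev3 y σ w vS = 1000 * s := by
  have h := isEv3 y σ w
  unfold vS
  simp only [h.mul, h.add, h.ofI, ev_im, ev_vX1, ev_vX2]
  rw [hs, hz]
  push_cast
  ring

theorem ev_vT (y σ w z s t : ℝ) (hz : z = 13 / 10 * y) (hs : s = (1 - 3 / 5 * z ^ 2) * σ)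
    (ht : t = 1 - s) : ev3 y σ w vT = 1000 * t := by
  have h := isEv3 y σ w
  unfold vT
  simp only [h.add, h.ofI, ev_im, ev_vS y σ w z s hz hs]
  rw [ht]
  push_cast
  ring

theorem ev_vC (y σ w c : ℝ) (hc : c = (58 * w - 29) / 50) : ev3 y σ w vC = 50 * c := by
  have h := isEv3 y σ w
  unfold vC
  simp only [h.add, h.ofI, ev_im, ev_vX3]
  rw [hc]
  push_cast
  ring

theorem ev_vV4 (y σ w z s t c : ℝ) (hz : z = 13 / 10 * y) (hs : s = (1 - 3 / 5 * z ^ 2) * σ)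
    (ht : t = 1 - s) (hc : c = (58 * w - 29) / 50) :
    ev3 y σ w vV4 = 500000000000000 * (z ^ 2 * ((cub d5F1p t z + c * qua d5F1q t z) +
      c * (cub d5F2p t z + c * qua d5F2q t z)) + s * (3 * cub d5Gp t z - 500.5 -
      z * (3 * (cub d5F0p t z + c * qua d5F0q t z) + (cub d5F2p t z + c * qua d5F2q t z)))) := by
  have h := isEv3 y σ w
  have hZ := ev_vZ y σ w z hz
  have hS := ev_vS y σ w z s hz hs
  have hT := ev_vT y σ w z s t hz hs ht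
  have hC := ev_vC y σ w c hc
  unfold vV4 vF vcG vc0 vq0 vc1 vq1 vc2 vq2
  simp only [h.mul, h.add, h.ofI, ev_im, hS, hC, hZ, ev_cubR y σ w _ _ _ _ _ _ _ _ _ _ vT vZ t z hT hZ,
    ev_quaR y σ w _ _ _ _ _ _ vT vZ t z hT hZ]
  rw [cub_G, cub_F0, qua_F0, cub_F1, qua_F1, cub_F2, qua_F2]
  push_cast
  ring

theorem ev_vV3 (y σ w z s t c : ℝ) (hz : z = 13 / 10 * y) (hs : s = (1 - 3 / 5 * z ^ 2) * σ)
    (ht : t = 1 - s) (hc : c = (58 * w - 29) / 50) :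
    ev3 y σ w vV3 = 500000000000000 * (z ^ 2 * ((cub d5F1p t z + c * qua d5F1q t z) +
      c * (cub d5F2p t z + c * qua d5F2q t z)) + s * (2 * cub d5Gp t z - 125.5 -
      z * (2 * (cub d5F0p t z + c * qua d5F0q t z) + (cub d5F2p t z + c * qua d5F2q t z)))) := by
  have h := isEv3 y σ w
  have hZ := ev_vZ y σ w z hz
  have hS := ev_vS y σ w z s hz hs
  have hT := ev_vT y σ w z s t hz hs ht
  have hC := ev_vC y σ w c hc
  unfold vV3 vF vcG vc0 vq0 vc1 vq1 vc2 vq2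
  simp only [h.mul, h.add, h.ofI, ev_im, hS, hC, hZ, ev_cubR y σ w _ _ _ _ _ _ _ _ _ _ vT vZ t z hT hZ,
    ev_quaR y σ w _ _ _ _ _ _ vT vZ t z hT hZ]
  rw [cub_G, cub_F0, qua_F0, cub_F1, qua_F1, cub_F2, qua_F2]
  push_cast
  ring

end

theorem K5_curv4 (c D : ℝ) (hc : 3 * c ^ 2 ≤ 1) (s z : ℝ)
    (hs : 0 < s) (hz : 0 ≤ z) (hd : s + 3 / 5 * z ^ 2 ≤ 1) :
    0 ≤ z ^ 2 * K5.C0 s z c D +
      s * ((3 : ℕ) * K5.G.f s z c -
        ((((3 : ℕ) : ℝ) - 1) ^ 2 / 4 + 1 / 1000) * K5.e.f s z c -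
        z * ((3 : ℕ) * K5.F0.f s z c + K5.F2.f s z c + c * K5.F3.f s z c)) := by
  have hc1 : c ≤ 0.58 := by nlinarith
  have hc2 : -0.58 ≤ c := by nlinarith
  have hq : 0 < 1 - 3 / 5 * z ^ 2 := by linarith
  have hz1 : z ≤ 13 / 10 := by nlinarith
  have h := V4_nonneg (10 / 13 * z) (s / (1 - 3 / 5 * z ^ 2)) ((50 * c + 29) / 58) (by positivity)
    (by linarith) (by positivity) (by rw [div_le_one hq]; linarith) (by linarith) (by linarith)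
  rw [ev_vV4 _ _ _ z s (1 - s) c (by ring) (by rw [mul_comm, div_mul_cancel₀ _ hq.ne']) rfl
    (by ring)] at h
  show 0 ≤ z ^ 2 * ((cub d5F1p (1 - s) z + c * qua d5F1q (1 - s) z) / 500 +
    c * ((cub d5F2p (1 - s) z + c * qua d5F2q (1 - s) z) / 500) + D * 0) +
    s * ((3 : ℕ) * ((cub d5Gp (1 - s) z + c * qua d5Gq (1 - s) z) / 500) -
      ((((3 : ℕ) : ℝ) - 1) ^ 2 / 4 + 1 / 1000) * 1 -
      z * ((3 : ℕ) * ((cub d5F0p (1 - s) z + c * qua d5F0q (1 - s) z) / 500) +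
        (cub d5F2p (1 - s) z + c * qua d5F2q (1 - s) z) / 500 + c * 0))
  rw [qua_G]
  generalize cub d5F1p (1 - s) z = A1 at h ⊢
  generalize qua d5F1q (1 - s) z = B1 at h ⊢
  generalize cub d5F2p (1 - s) z = A2 at h ⊢
  generalize qua d5F2q (1 - s) z = B2 at h ⊢
  generalize cub d5F0p (1 - s) z = A0 at h ⊢
  generalize qua d5F0q (1 - s) z = B0 at h ⊢
  generalize cub d5Gp (1 - s) z = Ag at h ⊢
  have e : z ^ 2 * ((A1 + c * B1) / 500 + c * ((A2 + c * B2) / 500) + D * 0) +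
    s * ((3 : ℕ) * ((Ag + c * 0) / 500) - ((((3 : ℕ) : ℝ) - 1) ^ 2 / 4 + 1 / 1000) * 1 -
      z * ((3 : ℕ) * ((A0 + c * B0) / 500) + (A2 + c * B2) / 500 + c * 0)) =
      (500000000000000 * (z ^ 2 * ((A1 + c * B1) + c * (A2 + c * B2)) + s * (3 * Ag - 500.5 -
      z * (3 * (A0 + c * B0) + (A2 + c * B2))))) / (500000000000000 * 500) := by
    push_cast
    ring
  rw [e]
  exact div_nonneg h (by norm_num)

theorem K5_curv3 (c D : ℝ) (hc : 3 * c ^ 2 ≤ 1) (s z : ℝ)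
    (hs : 0 < s) (hz : 0 ≤ z) (hd : s + 3 / 5 * z ^ 2 ≤ 1) :
    0 ≤ z ^ 2 * K5.C0 s z c D +
      s * ((2 : ℕ) * K5.G.f s z c -
        ((((2 : ℕ) : ℝ) - 1) ^ 2 / 4 + 1 / 1000) * K5.e.f s z c -
        z * ((2 : ℕ) * K5.F0.f s z c + K5.F2.f s z c + c * K5.F3.f s z c)) := by
  have hc1 : c ≤ 0.58 := by nlinarith
  have hc2 : -0.58 ≤ c := by nlinarith
  have hq : 0 < 1 - 3 / 5 * z ^ 2 := by linarith
  have hz1 : z ≤ 13 / 10 := by nlinarith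
  have h := V3_nonneg (10 / 13 * z) (s / (1 - 3 / 5 * z ^ 2)) ((50 * c + 29) / 58) (by positivity)
    (by linarith) (by positivity) (by rw [div_le_one hq]; linarith) (by linarith) (by linarith)
  rw [ev_vV3 _ _ _ z s (1 - s) c (by ring) (by rw [mul_comm, div_mul_cancel₀ _ hq.ne']) rfl
    (by ring)] at h
  show 0 ≤ z ^ 2 * ((cub d5F1p (1 - s) z + c * qua d5F1q (1 - s) z) / 500 +
    c * ((cub d5F2p (1 - s) z + c * qua d5F2q (1 - s) z) / 500) + D * 0) +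
    s * ((2 : ℕ) * ((cub d5Gp (1 - s) z + c * qua d5Gq (1 - s) z) / 500) -
      ((((2 : ℕ) : ℝ) - 1) ^ 2 / 4 + 1 / 1000) * 1 -
      z * ((2 : ℕ) * ((cub d5F0p (1 - s) z + c * qua d5F0q (1 - s) z) / 500) +
        (cub d5F2p (1 - s) z + c * qua d5F2q (1 - s) z) / 500 + c * 0))
  rw [qua_G]
  generalize cub d5F1p (1 - s) z = A1 at h ⊢
  generalize qua d5F1q (1 - s) z = B1 at h ⊢
  generalize cub d5F2p (1 - s) z = A2 at h ⊢
  generalize qua d5F2q (1 - s) z = B2 at h ⊢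
  generalize cub d5F0p (1 - s) z = A0 at h ⊢
  generalize qua d5F0q (1 - s) z = B0 at h ⊢
  generalize cub d5Gp (1 - s) z = Ag at h ⊢
  have e : z ^ 2 * ((A1 + c * B1) / 500 + c * ((A2 + c * B2) / 500) + D * 0) +
    s * ((2 : ℕ) * ((Ag + c * 0) / 500) - ((((2 : ℕ) : ℝ) - 1) ^ 2 / 4 + 1 / 1000) * 1 -
      z * ((2 : ℕ) * ((A0 + c * B0) / 500) + (A2 + c * B2) / 500 + c * 0)) =
      (500000000000000 * (z ^ 2 * ((A1 + c * B1) + c * (A2 + c * B2)) + s * (2 * Ag - 125.5 -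
      z * (2 * (A0 + c * B0) + (A2 + c * B2))))) / (500000000000000 * 500) := by
    push_cast
    ring
  rw [e]
  exact div_nonneg h (by norm_num)

end Vale.Agent.P098D3
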