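import Mathlib
import Vale.Agent.Lib.P098.Sta.Fv0

/-!
# P098: from smoothness up to the free boundary near each point to a global extension
-/

open MeasureTheory Set Filter Topology
open scoped ContDiff ENNReal Manifold

namespace Vale.Agent.P098D3

open Vale.Agent.P098

variable {d : ℕ} {u : Ed d → ℝ}

theorem exists_local (hs : ∀ x : Ed d, x ≠ 0 → ∃ w : Ed d → ℝ, ContDiff ℝ ∞ w ∧
      ∀ᶠ y in 𝓝 x, 0 < u y → u y = w y) :
    ∃ g : Ed d → ℝ, ContDiff ℝ ∞ g ∧ ∀ x, 0 < u x → 1 / 2 < ‖x‖ → g x = u x := by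
  have key := exists_contMDiffMap_forall_mem_convex_of_local (n := (⊤ : ℕ∞)) (F := ℝ)
    (I := 𝓘(ℝ, Ed d)) (M := Ed d)
    (t := fun x : Ed d => {s : ℝ | 0 < u x → 1 / 2 < ‖x‖ → s = u x}) ?_ ?_
  · obtain ⟨g, hg⟩ := key
    exact ⟨g, g.contMDiff.contDiff, fun x h1 h2 => hg x h1 h2⟩
  · intro x a ha b hb s t _ _ hst h1 h2
    have ha' : a = u x := ha h1 h2
    have hb' : b = u x := hb h1 h2
    rw [ha', hb', ← add_smul, hst, one_smul]
  · intro x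
    rcases eq_or_ne x 0 with rfl | hx
    · refine ⟨Metric.ball 0 (1 / 2), Metric.ball_mem_nhds _ (by norm_num), fun _ => 0,
        contMDiffOn_const, fun y hy h1 h2 => ?_⟩
      rw [mem_ball_zero_iff] at hy
      exact absurd h2 (not_lt.2 hy.le)
    · obtain ⟨w, hw, he⟩ := hs x hx
      refine ⟨_, he, w, hw.contMDiff.contMDiffOn, fun y hy h1 _ => ?_⟩
      exact (hy h1).symm

theorem exists_ext (hc : Continuous u) (hn : ∀ x, 0 ≤ u x)
    (hh : ∀ r : ℝ, 0 < r → ∀ x, u (r • x) = r * u x)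
    (hs : ∀ x : Ed d, x ≠ 0 → ∃ w : Ed d → ℝ, ContDiff ℝ ∞ w ∧
      ∀ᶠ y in 𝓝 x, 0 < u y → u y = w y) :
    ∃ w : Ed d → ℝ, Cone0 u w {0}ᶜ := by
  obtain ⟨g, hg, hgu⟩ := exists_local hs
  have h0 : u 0 = 0 := by
    have h1 := hh 2 (by norm_num) 0
    rw [smul_zero] at h1
    linarith
  refine ⟨fun x => ‖x‖ * g (‖x‖⁻¹ • x), hh, hc, hn, isOpen_compl_singleton, ?_, ?_, ?_⟩
  · rintro x ⟨_, hx⟩
    exact hx
  · intro x hx
    have hx0 : x ≠ 0 := hx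
    have h1 : ContDiffAt ℝ ∞ (fun y : Ed d => ‖y‖) x := contDiffAt_norm ℝ hx0
    have h2 : ContDiffAt ℝ ∞ (fun y : Ed d => ‖y‖⁻¹ • y) x :=
      (h1.inv (norm_ne_zero_iff.2 hx0)).smul contDiffAt_id
    exact (h1.mul (hg.contDiffAt.comp x h2)).contDiffWithinAt
  · intro x hx
    have hx' : 0 < u x := hx
    have hx0 : x ≠ 0 := by
      rintro rfl
      rw [h0] at hx'
      exact lt_irrefl _ hx'
    have hnx : 0 < ‖x‖ := norm_pos_iff.2 hx0
    have h1 : u (‖x‖⁻¹ • x) = ‖x‖⁻¹ * u x := hh _ (inv_pos.2 hnx) x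
    have h2 : ‖(‖x‖⁻¹ • x : Ed d)‖ = 1 := by
      rw [norm_smul, norm_inv, norm_norm, inv_mul_cancel₀ hnx.ne']
    have h3 : g (‖x‖⁻¹ • x) = u (‖x‖⁻¹ • x) := by
      refine hgu _ ?_ ?_
      · rw [h1]
        positivity
      · rw [h2]
        norm_num
    change ‖x‖ * g (‖x‖⁻¹ • x) = u x
    rw [h3, h1, ← mul_assoc, mul_inv_cancel₀ hnx.ne', one_mul]

end Vale.Agent.P098D3
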