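import Mathlib
import Vale.Agent.Lib.P098.Sta.Comp
import Vale.Agent.Lib.P098D3.Conv

/-!
# P098: flat solutions are minimizers and stable solutions
-/

open MeasureTheory Set Filter Topology
open scoped ContDiff ENNReal NNReal

namespace Vale.Agent.P098D3

open Vale.Agent.P098

variable {d : ℕ} {u v : Ed d → ℝ} {e : Ed d}

theorem energy_eq' (hv : Continuous v) {B : Set (Ed d)} (hB : MeasurableSet B) :
    (∫⁻ x in B, ‖gradient v x‖ₑ ^ 2) + volume (B ∩ {x | 0 < v x}) = energy v B := by
  have hm : MeasurableSet (Pos v) := (isOpen_lt continuous_const hv).measurableSet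
  unfold energy
  rw [lintegral_add_right _ (measurable_const.indicator hm)]
  congr 1
  · refine setLIntegral_congr_fun hB fun x _ => ?_
    rw [ENNReal.ofReal_pow (norm_nonneg _), ofReal_norm, enorm_eq_nnnorm, enorm_eq_nnnorm]
    congr 2
    exact NNReal.eq (norm_gradient v x)
  · rw [lintegral_indicator_const hm, one_mul, Measure.restrict_apply hm, inter_comm]
    rfl

theorem half_lip {f : Ed d → ℝ} {c : Ed d} {R : ℝ} {C : ℝ≥0}
    (hC : LipschitzOnWith C f (Metric.closedBall c R))
    (hs : ∀ x, x ∉ Metric.ball c R → f x = 0) {x y : Ed d} (hx : x ∈ Metric.closedBall c R)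
    (hy : y ∉ Metric.closedBall c R) : dist (f x) (f y) ≤ C * dist x y := by
  have hc : ContinuousOn (fun t : ℝ => dist (AffineMap.lineMap x y t : Ed d) c) (Icc 0 1) := by
    have h1 : Continuous (fun t : ℝ => (AffineMap.lineMap x y t : Ed d)) :=
      AffineMap.lineMap_continuous
    exact (h1.dist continuous_const).continuousOn
  have h2 := intermediate_value_Icc (zero_le_one (α := ℝ)) hc
  rw [Metric.mem_closedBall] at hx hy
  have h3 : R ∈ Icc (dist (AffineMap.lineMap x y (0 : ℝ) : Ed d) c)
      (dist (AffineMap.lineMap x y (1 : ℝ) : Ed d) c) := by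
    rw [AffineMap.lineMap_apply_zero, AffineMap.lineMap_apply_one]
    exact ⟨hx, (not_le.1 hy).le⟩
  obtain ⟨t, ht, htR⟩ := h2 h3
  have htR' : dist (AffineMap.lineMap x y t : Ed d) c = R := htR
  have h4 : f (AffineMap.lineMap x y t) = 0 := by
    refine hs _ ?_
    rw [Metric.mem_ball, htR']
    exact lt_irrefl _
  have h5 : f y = 0 := by
    refine hs _ ?_
    rw [Metric.mem_ball]
    exact not_lt.2 (not_le.1 hy).le
  have h6 := hC.dist_le_mul x (Metric.mem_closedBall.2 hx) (AffineMap.lineMap x y t)
    (Metric.mem_closedBall.2 htR'.le)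
  rw [h4] at h6
  rw [h5]
  refine h6.trans (mul_le_mul_of_nonneg_left ?_ C.2)
  rw [dist_left_lineMap, Real.norm_eq_abs, abs_of_nonneg ht.1]
  exact mul_le_of_le_one_left dist_nonneg ht.2

theorem exists_lip {f : Ed d → ℝ} (hf : LocallyLipschitz f) {c : Ed d} {R : ℝ}
    (hs : ∀ x, x ∉ Metric.ball c R → f x = 0) : ∃ C : ℝ≥0, LipschitzWith C f := by
  obtain ⟨C, hC⟩ := (hf.locallyLipschitzOn
    (s := Metric.closedBall c R)).exists_lipschitzOnWith_of_compact (isCompact_closedBall c R)
  refine ⟨C, LipschitzWith.of_dist_le_mul fun x y => ?_⟩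
  by_cases hx : x ∈ Metric.closedBall c R
  · by_cases hy : y ∈ Metric.closedBall c R
    · exact hC.dist_le_mul x hx y hy
    · exact half_lip hC hs hx hy
  · by_cases hy : y ∈ Metric.closedBall c R
    · rw [dist_comm, dist_comm x y]
      exact half_lip hC hs hy hx
    · have h1 : f x = 0 := hs x fun h => hx (Metric.ball_subset_closedBall h)
      have h2 : f y = 0 := hs y fun h => hy (Metric.ball_subset_closedBall h)
      rw [h1, h2, dist_self]
      exact mul_nonneg C.2 dist_nonneg

theorem ofReal_integral_le {μ : Measure (Ed d)} {f : Ed d → ℝ} (hf : Integrable f μ) :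
    ENNReal.ofReal (∫ x, f x ∂μ) ≤ ∫⁻ x, ENNReal.ofReal (f x) ∂μ := by
  rw [integral_eq_lintegral_pos_part_sub_lintegral_neg_part hf]
  refine le_trans (ENNReal.ofReal_le_ofReal (sub_le_self _ ENNReal.toReal_nonneg)) ?_
  exact ENNReal.ofReal_toReal_le

/-- the integral of a directional derivative of a Lipschitz function with compact support -/
theorem integral_lineDeriv_zero {f : Ed d → ℝ} {C : ℝ≥0} (hf : LipschitzWith C f)
    (hs : HasCompactSupport f) (a : Ed d) : ∫ x, lineDeriv ℝ f x a = 0 := by
  have h := LipschitzWith.integral_lineDeriv_mul_eq (μ := volume)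
    (LipschitzWith.const (1 : ℝ) : LipschitzWith 0 fun _ : Ed d => (1 : ℝ)) hf hs (-a)
  simp only [neg_neg, mul_one] at h
  rw [← h]
  have e : ∀ x : Ed d, lineDeriv ℝ (fun _ : Ed d => (1 : ℝ)) x (-a) = 0 := fun x => by
    simp [lineDeriv]
  simp [e]

section flat

variable (he : ‖e‖ = 1) (hu : ∀ x, u x = max (inner ℝ e x) 0)

include hu in
theorem flat_nonneg (x : Ed d) : 0 ≤ u x := by
  rw [hu]
  exact le_max_right _ _

include hu in
theorem flat_pos {x : Ed d} : 0 < u x ↔ 0 < inner ℝ e x := by
  rw [hu, lt_max_iff]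
  exact ⟨fun h => h.resolve_right (lt_irrefl _), Or.inl⟩

include hu in
theorem flat_cont : Continuous u := by
  have : u = fun x => max (inner ℝ e x) 0 := funext hu
  rw [this]
  fun_prop

include hu in
theorem flat_eventually {x : Ed d} (hx : 0 < u x) : u =ᶠ[𝓝 x] fun y => innerSL ℝ e y := by
  have h1 : {y | 0 < u y} ∈ 𝓝 x := (isOpen_lt continuous_const (flat_cont hu)).mem_nhds hx
  filter_upwards [h1] with y hy
  have hy' : 0 < inner ℝ e y := (flat_pos hu).1 hy
  rw [hu, max_eq_left hy'.le]
  rfl

include hu in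
theorem flat_fderiv {x : Ed d} (hx : 0 < u x) : fderiv ℝ u x = innerSL ℝ e := by
  rw [(flat_eventually hu hx).fderiv_eq]
  exact (innerSL ℝ e).fderiv

include hu in
theorem flat_gradient {x : Ed d} (hx : 0 < u x) : gradient u x = e := by
  unfold gradient
  rw [flat_fderiv hu hx]
  apply (InnerProductSpace.toDual ℝ (Ed d)).injective
  rw [LinearIsometryEquiv.apply_symm_apply]
  rfl

include hu in
theorem flat_fderiv_zero {x : Ed d} (hx : ¬ 0 < u x) : fderiv ℝ u x = 0 := by
  have hx0 : u x = 0 := le_antisymm (not_lt.1 hx) (flat_nonneg hu x)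
  have hmin : IsLocalMin u x := by
    filter_upwards with y
    rw [hx0]
    exact flat_nonneg hu y
  exact hmin.fderiv_eq_zero

include hu in
theorem flat_lip : ∃ C : ℝ≥0, LipschitzWith C u := by
  refine ⟨‖e‖₊, LipschitzWith.of_dist_le_mul fun x y => ?_⟩
  rw [hu, hu, Real.dist_eq, dist_eq_norm]
  refine (abs_max_sub_max_le_abs _ _ _).trans ?_
  rw [← inner_sub_right]
  exact abs_real_inner_le_norm _ _

include he hu in
theorem flat_energy {B : Set (Ed d)} (hB : MeasurableSet B) :
    energy u B = 2 * volume (Pos u ∩ B) := by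
  have hm : MeasurableSet (Pos u) := (isOpen_lt continuous_const (flat_cont hu)).measurableSet
  unfold energy
  have h1 : ∀ x, ENNReal.ofReal (‖fderiv ℝ u x‖ ^ 2) + (Pos u).indicator (fun _ => 1) x =
      (Pos u).indicator (fun _ => 2) x := by
    intro x
    by_cases hx : x ∈ Pos u
    · rw [indicator_of_mem hx, indicator_of_mem hx, flat_fderiv hu hx, innerSL_apply_norm, he]
      norm_num
    · rw [indicator_of_notMem hx, indicator_of_notMem hx, flat_fderiv_zero hu hx]
      simp
  simp only [h1]
  rw [lintegral_indicator_const hm, Measure.restrict_apply hm]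

include he hu in
/-- **Flat solutions are minimizers** (calibration). -/
theorem flat_min (hv : LocallyLipschitz v) (hv0 : ∀ x, 0 ≤ v x) {c : Ed d} {R : ℝ}
    (hs : tsupport (fun x => v x - u x) ⊆ Metric.ball c R) :
    energy u (Metric.ball c R) ≤ energy v (Metric.ball c R) := by
  set B : Set (Ed d) := Metric.ball c R
  have hBm : MeasurableSet B := Metric.isOpen_ball.measurableSet
  have hBf : volume B < ⊤ := measure_ball_lt_top
  have hm : MeasurableSet (Pos u) := (isOpen_lt continuous_const (flat_cont hu)).measurableSet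
  set f : Ed d → ℝ := fun x => v x - u x with hf
  obtain ⟨Cu, hCu⟩ := flat_lip hu
  have hfL : LocallyLipschitz f := hv.sub hCu.locallyLipschitz
  have hf0 : ∀ x, x ∉ B → f x = 0 := fun x hx =>
    image_eq_zero_of_notMem_tsupport fun h => hx (hs h)
  obtain ⟨C, hC⟩ := exists_lip hfL hf0
  have hfs : HasCompactSupport f := by
    refine HasCompactSupport.of_support_subset_isCompact (isCompact_closedBall c R) ?_
    exact (subset_tsupport f).trans (hs.trans Metric.ball_subset_closedBall)
  -- the integral of the derivative of the difference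
  have i1 : ∫ x in B, lineDeriv ℝ f x e = 0 := by
    rw [setIntegral_eq_integral_of_forall_compl_eq_zero, integral_lineDeriv_zero hC hfs]
    intro x hx
    have h1 : f =ᶠ[𝓝 x] fun _ => 0 := notMem_tsupport_iff_eventuallyEq.1 fun h => hx (hs h)
    rw [h1.lineDeriv_eq]
    simp [lineDeriv]
  have int1 : IntegrableOn (fun x => lineDeriv ℝ f x e) B := by
    refine Measure.integrableOn_of_bounded hBf.ne
      (measurable_lineDeriv hC.continuous).aestronglyMeasurable (M := C * ‖e‖) ?_
    filter_upwards with x
    exact norm_lineDeriv_le_of_lipschitz ℝ hC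
  have e2 : ∀ x, fderiv ℝ u x e = (Pos u).indicator (fun _ => (1 : ℝ)) x := by
    intro x
    by_cases hx : x ∈ Pos u
    · rw [indicator_of_mem hx, flat_fderiv hu hx, innerSL_apply_apply,
        real_inner_self_eq_norm_sq, he]
      norm_num
    · rw [indicator_of_notMem hx, flat_fderiv_zero hu hx]
      rfl
  have int2 : IntegrableOn (fun x => fderiv ℝ u x e) B := by
    simp only [e2]
    rw [integrableOn_indicator_iff hm]
    exact integrableOn_const (lt_of_le_of_lt (measure_mono inter_subset_right) hBf).ne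
  have i2 : ∫ x in B, fderiv ℝ u x e = volume.real (Pos u ∩ B) := by
    simp only [e2]
    rw [integral_indicator hm, Measure.restrict_restrict hm, integral_const, smul_eq_mul, mul_one,
      measureReal_restrict_apply_univ]
  -- almost everywhere splitting
  have hae : ∀ᵐ x, fderiv ℝ v x e = fderiv ℝ u x e + lineDeriv ℝ f x e := by
    filter_upwards [hCu.ae_differentiableAt, hC.ae_differentiableAt] with x h1 h2
    have h3 : v = fun y => u y + f y := by
      funext y
      simp only [hf]
      ring
    rw [h2.lineDeriv_eq_fderiv]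
    conv_lhs => rw [h3]
    rw [fderiv_fun_add h1 h2]
    rfl
  have int3 : IntegrableOn (fun x => 2 * fderiv ℝ v x e) B := by
    refine Integrable.const_mul ?_ 2
    exact (int2.add int1).congr (ae_restrict_of_ae (hae.mono fun x hx => hx.symm))
  have i3 : ∫ x in B, 2 * fderiv ℝ v x e = 2 * volume.real (Pos u ∩ B) := by
    rw [integral_const_mul, integral_congr_ae (ae_restrict_of_ae hae), integral_add int2 int1,
      i1, i2, add_zero]
  -- pointwise inequality
  have hpt : ∀ x, ENNReal.ofReal (2 * fderiv ℝ v x e) ≤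
      ENNReal.ofReal (‖fderiv ℝ v x‖ ^ 2) + (Pos v).indicator (fun _ => 1) x := by
    intro x
    by_cases hx : x ∈ Pos v
    · rw [indicator_of_mem hx, ← ENNReal.ofReal_one, ← ENNReal.ofReal_add (by positivity)
        zero_le_one]
      refine ENNReal.ofReal_le_ofReal ?_
      have h1 : fderiv ℝ v x e ≤ ‖fderiv ℝ v x‖ := by
        have h2 := (fderiv ℝ v x).le_opNorm e
        rw [he, mul_one] at h2
        exact (le_abs_self _).trans h2
      nlinarith [sq_nonneg (‖fderiv ℝ v x‖ - 1)]
    · have hx0 : v x = 0 := le_antisymm (not_lt.1 hx) (hv0 x)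
      have hmin : IsLocalMin v x := by
        filter_upwards with y
        rw [hx0]
        exact hv0 y
      rw [hmin.fderiv_eq_zero]
      simp
  rw [flat_energy he hu hBm]
  calc 2 * volume (Pos u ∩ B) = ENNReal.ofReal (∫ x in B, 2 * fderiv ℝ v x e) := by
        rw [i3, ENNReal.ofReal_mul (by norm_num), Measure.real,
          ENNReal.ofReal_toReal (lt_of_le_of_lt (measure_mono inter_subset_right) hBf).ne]
        norm_num
    _ ≤ ∫⁻ x in B, ENNReal.ofReal (2 * fderiv ℝ v x e) := ofReal_integral_le int3
    _ ≤ energy v B := lintegral_mono hpt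

include hu in
theorem flat_laplacian {x : Ed d} (hx : 0 < u x) : Laplacian.laplacian u x = 0 := by
  rw [(InnerProductSpace.laplacian_congr_nhds (flat_eventually hu hx)).self_of_nhds,
    laplacian_eq (innerSL ℝ e).contDiff.contDiffAt]
  refine Finset.sum_eq_zero fun i _ => ?_
  have h1 : pd i (fun y => innerSL ℝ e y) = fun _ => innerSL ℝ e (EuclideanSpace.single i 1) := by
    funext y
    unfold pd
    rw [(innerSL ℝ e).fderiv]
  rw [h1, pd_const]

include hu in
theorem flat_hg {x : Ed d} (hx : 0 < u x) : hg u =ᶠ[𝓝 x] fun _ => ‖e‖ ^ 2 / 2 := by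
  have h1 : {y | 0 < u y} ∈ 𝓝 x := (isOpen_lt continuous_const (flat_cont hu)).mem_nhds hx
  filter_upwards [h1] with y hy
  unfold hg
  rw [flat_gradient hu hy]

include hu in
theorem flat_hg_laplacian {x : Ed d} (hx : 0 < u x) : Laplacian.laplacian (hg u) x = 0 := by
  rw [(InnerProductSpace.laplacian_congr_nhds (flat_hg hu hx)).self_of_nhds,
    laplacian_eq contDiffAt_const]
  refine Finset.sum_eq_zero fun i _ => ?_
  have h1 : pd i (fun _ : Ed d => ‖e‖ ^ 2 / 2) = fun _ => 0 := by
    funext y
    exact pd_const _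
  rw [h1, pd_const]

include hu in
theorem flat_hg_gradient {x : Ed d} (hx : 0 < u x) : gradient (hg u) x = 0 := by
  unfold gradient
  rw [(flat_hg hu hx).fderiv_eq, fderiv_const_apply, map_zero]

include he hu in
theorem flat_fb {x : Ed d} :
    Tendsto (fun y => ‖gradient u y‖) (𝓝[{y | 0 < u y}] x) (𝓝 1) := by
  refine Tendsto.congr' ?_ tendsto_const_nhds
  filter_upwards [self_mem_nhdsWithin] with y hy
  rw [flat_gradient hu hy, he]

end flat

end Vale.Agent.P098D3
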