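import Mathlib
import Vale.Agent.Lib.P098.Cert.K5
import Vale.Agent.Lib.P098.Cert.Dom4
import Vale.Agent.Lib.P098.Cert.Asm5
import Vale.Agent.Lib.P098.Cert.Bx5
import Vale.Agent.Lib.P098.Var.Jet
import Vale.Agent.Lib.P098.Var.Rigid
import Vale.Agent.Lib.P098.Var.Res
import Vale.Agent.Lib.P098D3.Curv

/-!
# P098: stable cones and minimizing cones in dimensions two to five are flat
-/

open MeasureTheory Set Filter Topology
open scoped ContDiff

namespace Vale.Agent.P098D3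

open Vale.Agent.P098

/-- extension by zero -/
def ext0 {k : ℕ} (l : Fin k → ℝ) : Fin (k + 1) → ℝ := Fin.snoc l 0

theorem ext0_castSucc {k : ℕ} (l : Fin k → ℝ) (i : Fin k) : ext0 l i.castSucc = l i := by
  unfold ext0
  rw [Fin.snoc_castSucc (α := fun _ => ℝ)]

theorem ext0_last {k : ℕ} (l : Fin k → ℝ) : ext0 l (Fin.last k) = 0 := by
  unfold ext0
  rw [Fin.snoc_last (α := fun _ => ℝ)]

theorem sum_ext0 {k : ℕ} (l : Fin k → ℝ) : ∑ i, ext0 l i = ∑ i, l i := by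
  rw [Fin.sum_univ_castSucc]
  simp only [ext0_castSucc, ext0_last, add_zero]

theorem sum_ext0_pow {k : ℕ} (l : Fin k → ℝ) {n : ℕ} (hn : n ≠ 0) :
    ∑ i, ext0 l i ^ n = ∑ i, l i ^ n := by
  rw [Fin.sum_univ_castSucc]
  simp only [ext0_castSucc, ext0_last, zero_pow hn, add_zero]

theorem sum_ext0_mul {k : ℕ} (l t : Fin k → ℝ) :
    ∑ i, ext0 l i * ext0 t i = ∑ i, l i * t i := by
  rw [Fin.sum_univ_castSucc]
  simp only [ext0_castSucc, ext0_last, mul_zero, add_zero]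

theorem sum_ext0_sq_mul {k : ℕ} (l t : Fin k → ℝ) :
    ∑ i, ext0 l i ^ 2 * ext0 t i = ∑ i, l i ^ 2 * t i := by
  rw [Fin.sum_univ_castSucc]
  simp only [ext0_castSucc, ext0_last, mul_zero, add_zero]

/-- all hypotheses but the curvature inequality pass to one dimension less -/
theorem hyp_down {k : ℕ} {K : KCert} {a γ κ : ℝ} (h : K.Hyp (k + 1) a γ κ)
    (hcurv : ∀ l : Fin k → ℝ, ∑ i, l i = 0 → ∑ i, l i ^ 2 = 1 → ∀ s z : ℝ, 0 < s → 0 ≤ z →
    s + κ * z ^ 2 ≤ 1 →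
    0 ≤ z ^ 2 * K.C0 s z (∑ j, l j ^ 3) (∑ j, l j ^ 4) +
      s * (k * K.G.f s z (∑ j, l j ^ 3) - (((k : ℝ) - 1) ^ 2 / 4 + γ) * K.e.f s z (∑ j, l j ^ 3) -
        z * (k * K.F0.f s z (∑ j, l j ^ 3) + K.F2.f s z (∑ j, l j ^ 3) +
          (∑ j, l j ^ 3) * K.F3.f s z (∑ j, l j ^ 3)))) : K.Hyp k a γ κ where
  a_lo := h.a_lo
  flat := by
    intro l h1 h2 s z hs hz hd i t ht y r
    have := h.flat (ext0 l) (by rw [sum_ext0, h1]) (by rw [sum_ext0_pow l two_ne_zero, h2]) s z hs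
      hz hd i.castSucc (ext0 t) (by rw [sum_ext0, ht]) y r
    rwa [sum_ext0_pow l (by norm_num), sum_ext0_pow l (by norm_num), sum_ext0_pow t two_ne_zero,
      sum_ext0_mul, sum_ext0_sq_mul, ext0_castSucc, ext0_castSucc] at this
  curv := hcurv
  bdry := by
    intro l h1 h2 i hi
    have := h.bdry (ext0 l) (by rw [sum_ext0, h1]) (by rw [sum_ext0_pow l two_ne_zero, h2])
      i.castSucc (by rwa [ext0_castSucc])
    rwa [sum_ext0_pow l (by norm_num), ext0_castSucc] at this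
  pos := by
    obtain ⟨e0, he0, h0⟩ := h.pos
    refine ⟨e0, he0, ?_⟩
    intro l h1 h2 s z hs hz hd
    have := h0 (ext0 l) (by rw [sum_ext0, h1]) (by rw [sum_ext0_pow l two_ne_zero, h2]) s z hs
      hz hd
    rwa [sum_ext0_pow l (by norm_num)] at this

theorem K5_hyp4 : K5.Hyp 4 (51 / 100) (1 / 1000) (3 / 5) := K5_hyp k5Flat

theorem cube_le {k : ℕ} {l : Fin k → ℝ} (h1 : ∑ i, l i = 0)
    (h2 : ∑ i, l i ^ 2 = 1) (H : ∀ l' : Fin (k + 1) → ℝ, ∑ i, l' i = 0 → ∑ i, l' i ^ 2 = 1 →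
      3 * (∑ j, l' j ^ 3) ^ 2 ≤ 1) : 3 * (∑ j, l j ^ 3) ^ 2 ≤ 1 := by
  have := H (ext0 l) (by rw [sum_ext0, h1]) (by rw [sum_ext0_pow l two_ne_zero, h2])
  rwa [sum_ext0_pow l (by norm_num)] at this

theorem cube3 {l : Fin 3 → ℝ} (h1 : ∑ i, l i = 0) (h2 : ∑ i, l i ^ 2 = 1) :
    3 * (∑ j, l j ^ 3) ^ 2 ≤ 1 :=
  cube_le h1 h2 fun _ h1 h2 => cube4_sq h1 h2

theorem cube2 {l : Fin 2 → ℝ} (h1 : ∑ i, l i = 0) (h2 : ∑ i, l i ^ 2 = 1) :
    3 * (∑ j, l j ^ 3) ^ 2 ≤ 1 :=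
  cube_le h1 h2 fun _ h1 h2 => cube3 h1 h2

theorem K5_hyp3 : K5.Hyp 3 (51 / 100) (1 / 1000) (3 / 5) :=
  hyp_down K5_hyp4 fun _ h1 h2 s z hs hz hd => K5_curv4 _ _ (cube3 h1 h2) s z hs hz hd

theorem K5_hyp2 : K5.Hyp 2 (51 / 100) (1 / 1000) (3 / 5) :=
  hyp_down K5_hyp3 fun _ h1 h2 s z hs hz hd => K5_curv3 _ _ (cube2 h1 h2) s z hs hz hd

/-- the Hessian of a solution in dimension two vanishes -/
theorem hess2 {u w : Ed 2 → ℝ} {U : Set (Ed 2)} (h : SmoothCone u w U) {x : Ed 2}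
    (hx : x ∈ Pos u) (i j : Fin 2) : pd i (pd j w) x = 0 := by
  have hxU := h.pos_sub hx
  have e0 := h.euler1_pos hx 0
  have e1 := h.euler1_pos hx 1
  have hs := h.symm2 hxU 0 1
  have ht : pd 0 (pd 0 w) x + pd 1 (pd 1 w) x = 0 := by
    have := h.harm x hx
    unfold lap at this
    rwa [Fin.sum_univ_two] at this
  rw [Fin.sum_univ_two] at e0 e1
  have hx0 : 0 < x 0 ^ 2 + x 1 ^ 2 := by
    have h1 : 0 < ‖x‖ ^ 2 := by
      have := norm_pos_iff.2 (h.ne_zero hx)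
      positivity
    rw [EuclideanSpace.norm_sq_eq, Fin.sum_univ_two] at h1
    simpa using h1
  set a := pd 0 (pd 0 w) x with ha
  set b := pd 0 (pd 1 w) x with hb
  have hb' : pd 1 (pd 0 w) x = b := hs.symm
  have hc : pd 1 (pd 1 w) x = -a := by linarith
  rw [hb', hc] at e1
  have ha0 : a = 0 := by
    have : a * (x 0 ^ 2 + x 1 ^ 2) = 0 := by linear_combination x 0 * e0 - x 1 * e1
    rcases mul_eq_zero.1 this with h1 | h1
    · exact h1
    · exact absurd h1 hx0.ne'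
  have hb0 : b = 0 := by
    have : b * (x 0 ^ 2 + x 1 ^ 2) = 0 := by linear_combination x 1 * e0 + x 0 * e1
    rcases mul_eq_zero.1 this with h1 | h1
    · exact h1
    · exact absurd h1 hx0.ne'
  fin_cases i <;> fin_cases j
  · exact ha0
  · exact hb0
  · exact hb'.trans hb0
  · exact hc.trans (by rw [ha0, neg_zero])

/-- **stable cones in dimensions two to five are flat** -/
theorem stab_flat {d : ℕ} (hd : 2 ≤ d) (hd5 : d ≤ 5) {u w : Ed d → ℝ} {U : Set (Ed d)}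
    (h : SmoothCone u w U) (hst : Stab u w) :
    (∀ x, u x = 0) ∨ ∃ e : Ed d, ‖e‖ = 1 ∧ ∀ x, u x = max (inner ℝ e x) 0 := by
  obtain rfl | rfl | rfl | rfl : d = 2 ∨ d = 3 ∨ d = 4 ∨ d = 5 := by omega
  · exact rigid le_rfl h fun x hx i j => hess2 h hx i j
  · exact (res_of_cert (k := 2) le_rfl K5_good K5_hyp2 (by norm_num) (by norm_num)
      (by norm_num)).1 u w U h hst
  · exact (res_of_cert (k := 3) (by norm_num) K5_good K5_hyp3 (by norm_num) (by norm_num)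
      (by norm_num)).1 u w U h hst
  · exact (res_of_cert (k := 4) (by norm_num) K5_good K5_hyp4 (by norm_num) (by norm_num)
      (by norm_num)).1 u w U h hst

end Vale.Agent.P098D3
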