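import Mathlib
import Vale.Agent.Lib.P098.Sta.Bd
import Vale.Agent.Lib.P098.Sta.Comp
import Vale.Agent.Lib.P098.Sta.Fv0
import Vale.Agent.Lib.P098.Sta.Fv1

/-!
# P098: minimizers in dimension one are flat
-/

open MeasureTheory Set Filter Topology
open scoped ContDiff ENNReal NNReal

namespace Vale.Agent.P098D3

open Vale.Agent.P098

/-- the energy density -/
noncomputable def gd {d : ℕ} (v : Ed d → ℝ) (x : Ed d) : ℝ≥0∞ :=
  ENNReal.ofReal (‖fderiv ℝ v x‖ ^ 2) + (Pos v).indicator (fun _ => 1) x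

theorem energy_gd {d : ℕ} (v : Ed d → ℝ) (B : Set (Ed d)) : energy v B = ∫⁻ x in B, gd v x := rfl

theorem gd_congr {d : ℕ} {u v : Ed d → ℝ} {x : Ed d} (h : u =ᶠ[𝓝 x] v) : gd u x = gd v x := by
  unfold gd
  rw [h.fderiv_eq]
  congr 1
  unfold Pos indicator
  simp only [mem_ofPred_eq]
  rw [h.self_of_nhds]

theorem gd_zero {d : ℕ} {v : Ed d → ℝ} (hv : ∀ x, 0 ≤ v x) {x : Ed d} (hx : v x = 0) :
    gd v x = 0 := by
  have hmin : IsLocalMin v x := by
    filter_upwards with y
    rw [hx]
    exact hv y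
  unfold gd
  rw [hmin.fderiv_eq_zero, indicator_of_notMem]
  · simp
  · change ¬ 0 < v x
    rw [hx]
    exact lt_irrefl _

/-- localization of minimality -/
theorem energy_loc {d : ℕ} {u w v : Ed d → ℝ} {U : Set (Ed d)} (h : Cone0 u w U) (hm : LipMin u)
    {K : Set (Ed d)} (hK : IsCompact K) (hv : LocallyLipschitz v) (hv0 : ∀ x, 0 ≤ v x)
    (huv : ∀ x, x ∉ K → v x = u x) : energy u K ≤ energy v K := by
  obtain ⟨R, hR⟩ := hK.isBounded.subset_ball (0 : Ed d)
  have hs : tsupport (fun x => v x - u x) ⊆ K := by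
    refine closure_minimal (fun x hx => ?_) hK.isClosed
    by_contra hxK
    apply hx
    change v x - u x = 0
    rw [huv x hxK, sub_self]
  have h1 := hm R v hv hv0 (hs.trans hR)
  have hKm := hK.measurableSet
  have split : ∀ f : Ed d → ℝ, energy f (Metric.ball 0 R) =
      energy f K + energy f (Metric.ball 0 R \ K) := by
    intro f
    simp only [energy_gd]
    rw [← lintegral_inter_add_sdiff _ _ hKm, inter_eq_right.2 hR]
  have hBm : MeasurableSet (Metric.ball (0 : Ed d) R \ K) :=
    Metric.isOpen_ball.measurableSet.diff hKm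
  have heq : energy v (Metric.ball 0 R \ K) = energy u (Metric.ball 0 R \ K) := by
    simp only [energy_gd]
    refine setLIntegral_congr_fun hBm fun x hx => gd_congr ?_
    filter_upwards [hK.isClosed.isOpen_compl.mem_nhds hx.2] with y hy
    exact huv y hy
  have hfin : energy u (Metric.ball 0 R \ K) ≠ ⊤ := by
    refine ne_top_of_le_ne_top (b := energy u (Metric.ball 0 R)) ?_ ?_
    · rw [h.energy_self R]
      exact ENNReal.ofReal_ne_top
    · rw [split u]
      exact le_add_self
  rw [split u, split v, heq] at h1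
  exact (ENNReal.add_le_add_iff_right hfin).1 h1

/-- the slab -/
def slab (p q : ℝ) : Set (Ed 1) := {x | p < x 0 ∧ x 0 < q}

theorem slab_open (p q : ℝ) : IsOpen (slab p q) := by
  have h : Continuous fun x : Ed 1 => x 0 := by fun_prop
  exact (isOpen_lt continuous_const h).inter (isOpen_lt h continuous_const)

theorem vol_slab (p q : ℝ) : volume (slab p q) = ENNReal.ofReal (q - p) := by
  have h := (PiLp.volume_preserving_toLp (Fin 1)).measure_preimage
    (slab_open p q).measurableSet.nullMeasurableSet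
  rw [← h]
  have e : (WithLp.toLp 2 : (Fin 1 → ℝ) → Ed 1) ⁻¹' slab p q = Set.pi univ fun _ => Ioo p q := by
    ext y
    simp [slab, Set.mem_pi]
  rw [e, Real.volume_pi_Ioo]
  simp

theorem vol_pt (p : ℝ) : volume {x : Ed 1 | x 0 = p} = 0 := by
  have h : ∀ ε : ℝ≥0, 0 < ε → volume {x : Ed 1 | x 0 = p} ≤ (ε : ℝ≥0∞) := by
    intro ε hε
    refine (measure_mono (t := slab (p - ε / 2) (p + ε / 2)) ?_).trans ?_
    · intro x hx
      have hx' : x 0 = p := hx
      have : (0 : ℝ) < ε := hε
      constructor <;> linarith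
    · rw [vol_slab]
      rw [show p + (ε : ℝ) / 2 - (p - ε / 2) = ε by ring, ENNReal.ofReal_coe_nnreal]
  refine le_antisymm (ENNReal.le_of_forall_pos_le_add fun ε hε _ => ?_) (by simp)
  rw [zero_add]
  exact h ε hε

theorem nsq {v : Ed 1 → ℝ} {x : Ed 1} {α β : ℝ} (h : v =ᶠ[𝓝 x] fun y => α * y 0 + β) :
    ‖fderiv ℝ v x‖ ^ 2 = α ^ 2 := by
  have h1 : HasFDerivAt (fun y : Ed 1 => α * y 0 + β)
      (α • (EuclideanSpace.proj (0 : Fin 1) : Ed 1 →L[ℝ] ℝ)) x :=
    ((EuclideanSpace.proj (0 : Fin 1) : Ed 1 →L[ℝ] ℝ).hasFDerivAt.const_mul α).add_const β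
  have h2 : pd 0 (fun y : Ed 1 => α * y 0 + β) x = α := by
    unfold pd
    rw [h1.fderiv]
    simp
  rw [norm_fderiv_sq, Fin.sum_univ_one, pd_congr h, h2]

theorem gd_aff {v : Ed 1 → ℝ} {x : Ed 1} {α β : ℝ} (h : v =ᶠ[𝓝 x] fun y => α * y 0 + β)
    (hp : 0 < v x) : gd v x = ENNReal.ofReal (α ^ 2 + 1) := by
  unfold gd
  rw [nsq h, indicator_of_mem (show x ∈ Pos v from hp), ENNReal.ofReal_add (sq_nonneg _)
    zero_le_one, ENNReal.ofReal_one]

theorem lint_slab {v : Ed 1 → ℝ} {p q c : ℝ} (h : ∀ x ∈ slab p q, gd v x = ENNReal.ofReal c) :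
    ∫⁻ x in slab p q, gd v x = ENNReal.ofReal c * ENNReal.ofReal (q - p) := by
  rw [setLIntegral_congr_fun (slab_open p q).measurableSet h, setLIntegral_const, vol_slab]

theorem norm1 (x : Ed 1) : ‖x‖ = |x 0| := by
  rw [EuclideanSpace.norm_eq, Fin.sum_univ_one, Real.norm_eq_abs, sq_abs, Real.sqrt_sq_eq_abs]

section

variable {u w : Ed 1 → ℝ} {U : Set (Ed 1)}

theorem one_up (h : Cone0 u w U) {x : Ed 1} (hx : 0 < x 0) :
    u x = u (EuclideanSpace.single 0 1) * x 0 := by
  have e : x = x 0 • (EuclideanSpace.single 0 1 : Ed 1) := by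
    ext i
    fin_cases i
    simp
  conv_lhs => rw [e]
  rw [h.hom _ hx]
  ring

theorem one_down (h : Cone0 u w U) {x : Ed 1} (hx : x 0 < 0) :
    u x = -u (-EuclideanSpace.single 0 1) * x 0 := by
  have e : x = (-x 0) • (-EuclideanSpace.single 0 1 : Ed 1) := by
    ext i
    fin_cases i
    simp
  conv_lhs => rw [e]
  rw [h.hom _ (by linarith)]
  ring

theorem one_zero (h : Cone0 u w U) {x : Ed 1} (hx : x 0 = 0) : u x = 0 := by
  have e : x = 0 := by
    ext i
    fin_cases i
    simpa using hx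
  rw [e, h.zero]

/-- not positive on both sides -/
theorem one_side (h : Cone0 u w U) (hm : LipMin u) {a b : ℝ}
    (ha : a = u (EuclideanSpace.single 0 1)) (hb : b = u (-EuclideanSpace.single 0 1))
    (ha0 : 0 < a) (hb0 : 0 < b) : False := by
  have hup : ∀ x : Ed 1, 0 < x 0 → u x = a * x 0 := fun x hx => by rw [ha]; exact one_up h hx
  have hdn : ∀ x : Ed 1, x 0 < 0 → u x = -b * x 0 := fun x hx => by rw [hb]; exact one_down h hx
  set v : Ed 1 → ℝ := fun x => (a + b) / 2 * (1 + max (x 0 - 1) 0 + max (-x 0 - 1) 0) +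
    (a - b) / 2 * x 0 with hv
  have hin : ∀ x : Ed 1, -1 ≤ x 0 → x 0 ≤ 1 → v x = (a - b) / 2 * x 0 + (a + b) / 2 := by
    intro x h1 h2
    simp only [hv]
    rw [max_eq_right (by linarith), max_eq_right (by linarith)]
    ring
  have hr : ∀ x : Ed 1, 1 ≤ x 0 → v x = a * x 0 := by
    intro x h1
    simp only [hv]
    rw [max_eq_left (by linarith), max_eq_right (by linarith)]
    ring
  have hl : ∀ x : Ed 1, x 0 ≤ -1 → v x = -b * x 0 := by
    intro x h1
    simp only [hv]
    rw [max_eq_right (by linarith), max_eq_left (by linarith)]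
    ring
  have hpos : ∀ x : Ed 1, 0 < v x := by
    intro x
    rcases le_total (x 0) (-1) with h1 | h1
    · rw [hl x h1]
      nlinarith
    · rcases le_total (x 0) 1 with h2 | h2
      · rw [hin x h1 h2]
        have h3 := mul_nonneg ha0.le (show 0 ≤ 1 + x 0 by linarith)
        have h4 := mul_nonneg hb0.le (show 0 ≤ 1 - x 0 by linarith)
        rcases le_total (x 0) 0 with h5 | h5
        · have h6 := mul_nonneg hb0.le (show 0 ≤ -x 0 by linarith)
          nlinarith
        · have h6 := mul_nonneg ha0.le h5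
          nlinarith
      · rw [hr x h2]
        nlinarith
  have hc0 : LocallyLipschitz fun x : Ed 1 => x 0 := by
    have : ContDiff ℝ 1 fun x : Ed 1 => x 0 := by fun_prop
    exact this.locallyLipschitz
  have hvL : LocallyLipschitz v := by
    have h1 : LocallyLipschitz fun x : Ed 1 => max (x 0 - 1) 0 := by
      have : ContDiff ℝ 1 fun x : Ed 1 => x 0 - 1 := by fun_prop
      exact this.locallyLipschitz.max_const 0
    have h2 : LocallyLipschitz fun x : Ed 1 => max (-x 0 - 1) 0 := by
      have : ContDiff ℝ 1 fun x : Ed 1 => -x 0 - 1 := by fun_prop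
      exact this.locallyLipschitz.max_const 0
    have h3 : LocallyLipschitz fun t : ℝ × ℝ × ℝ => (a + b) / 2 * (1 + t.1 + t.2.1) +
        (a - b) / 2 * t.2.2 := by
      have : ContDiff ℝ 1 fun t : ℝ × ℝ × ℝ => (a + b) / 2 * (1 + t.1 + t.2.1) +
        (a - b) / 2 * t.2.2 := by fun_prop
      exact this.locallyLipschitz
    exact h3.comp (h1.prodMk (h2.prodMk hc0))
  have hK := energy_loc h hm (isCompact_closedBall (0 : Ed 1) 1) hvL (fun x => (hpos x).le) (by
    intro x hx
    rw [mem_closedBall_zero_iff, norm1, not_le, lt_abs] at hx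
    rcases hx with hx | hx
    · rw [hr x hx.le, hup x (by linarith)]
    · rw [hl x (by linarith), hdn x (by linarith)])
  -- lower bound
  have hlow : ENNReal.ofReal (a ^ 2 + 1) + ENNReal.ofReal (b ^ 2 + 1) ≤
      energy u (Metric.closedBall 0 1) := by
    have e1 : ∫⁻ x in slab 0 1, gd u x = ENNReal.ofReal (a ^ 2 + 1) := by
      rw [lint_slab (c := a ^ 2 + 1), show (1 : ℝ) - 0 = 1 by ring, ENNReal.ofReal_one, mul_one]
      intro x hx
      refine gd_aff (β := 0) ?_ ?_
      · filter_upwards [(slab_open 0 1).mem_nhds hx] with y hy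
        rw [hup y hy.1, add_zero]
      · rw [hup x hx.1]
        exact mul_pos ha0 hx.1
    have e2 : ∫⁻ x in slab (-1) 0, gd u x = ENNReal.ofReal (b ^ 2 + 1) := by
      rw [lint_slab (c := b ^ 2 + 1), show (0 : ℝ) - -1 = 1 by ring, ENNReal.ofReal_one, mul_one]
      intro x hx
      rw [show b ^ 2 = (-b) ^ 2 by ring]
      refine gd_aff (β := 0) ?_ ?_
      · filter_upwards [(slab_open (-1) 0).mem_nhds hx] with y hy
        rw [hdn y hy.2, add_zero]
      · rw [hdn x hx.2]
        nlinarith [hx.2]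
    rw [← e1, ← e2, ← lintegral_union (slab_open (-1) 0).measurableSet, energy_gd]
    · refine lintegral_mono_set ?_
      rintro x (hx | hx)
      · rw [mem_closedBall_zero_iff, norm1, abs_le]
        exact ⟨by linarith [hx.1], hx.2.le⟩
      · rw [mem_closedBall_zero_iff, norm1, abs_le]
        exact ⟨hx.1.le, by linarith [hx.2]⟩
    · rw [Set.disjoint_left]
      intro x hx hx'
      exact absurd hx.1 (not_lt.2 hx'.2.le)
  -- upper bound
  have hupp : energy v (Metric.closedBall 0 1) ≤
      ENNReal.ofReal (((a - b) / 2) ^ 2 + 1) * ENNReal.ofReal (1 - -1) := by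
    have e1 : ∫⁻ x in slab (-1) 1, gd v x =
        ENNReal.ofReal (((a - b) / 2) ^ 2 + 1) * ENNReal.ofReal (1 - -1) := by
      refine lint_slab ?_
      intro x hx
      refine gd_aff (β := (a + b) / 2) ?_ (hpos x)
      filter_upwards [(slab_open (-1) 1).mem_nhds hx] with y hy
      exact hin y hy.1.le hy.2.le
    have hsub : Metric.closedBall (0 : Ed 1) 1 ⊆ slab (-1) 1 ∪
        ({x : Ed 1 | x 0 = 1} ∪ {x : Ed 1 | x 0 = -1}) := by
      intro x hx
      rw [mem_closedBall_zero_iff, norm1, abs_le] at hx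
      rcases hx.1.lt_or_eq with h1 | h1
      · rcases hx.2.lt_or_eq with h2 | h2
        · exact Or.inl ⟨h1, h2⟩
        · exact Or.inr (Or.inl h2)
      · exact Or.inr (Or.inr h1.symm)
    have hN : volume ({x : Ed 1 | x 0 = 1} ∪ {x : Ed 1 | x 0 = -1}) = 0 :=
      measure_union_null (vol_pt 1) (vol_pt (-1))
    rw [energy_gd, ← e1]
    calc ∫⁻ x in Metric.closedBall (0 : Ed 1) 1, gd v x ≤ ∫⁻ x in slab (-1) 1 ∪
        ({x : Ed 1 | x 0 = 1} ∪ {x : Ed 1 | x 0 = -1}), gd v x := lintegral_mono_set hsub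
      _ ≤ (∫⁻ x in slab (-1) 1, gd v x) +
        ∫⁻ x in ({x : Ed 1 | x 0 = 1} ∪ {x : Ed 1 | x 0 = -1}), gd v x :=
          lintegral_union_le _ _ _
      _ = ∫⁻ x in slab (-1) 1, gd v x := by
          rw [setLIntegral_measure_zero _ _ hN, add_zero]
  have hfin := hlow.trans (hK.trans hupp)
  rw [← ENNReal.ofReal_add (by positivity) (by positivity), ← ENNReal.ofReal_mul (by positivity),
    ENNReal.ofReal_le_ofReal_iff (by positivity)] at hfin
  nlinarith

/-- the slope is one -/
theorem one_slope (h : Cone0 u w U) (hm : LipMin u) {a : ℝ}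
    (ha : a = u (EuclideanSpace.single 0 1)) (hb : u (-EuclideanSpace.single 0 1) = 0)
    (ha0 : 0 < a) : a = 1 := by
  have hup : ∀ x : Ed 1, 0 < x 0 → u x = a * x 0 := fun x hx => by rw [ha]; exact one_up h hx
  have hdn : ∀ x : Ed 1, x 0 ≤ 0 → u x = 0 := fun x hx => by
    rcases hx.lt_or_eq with h1 | h1
    · rw [one_down h h1, hb]
      ring
    · exact one_zero h h1
  set v : Ed 1 → ℝ := fun x => max (x 0 - 1 + a) 0 + (a - 1) * max (x 0 - 1) 0 with hv
  have hin : ∀ x : Ed 1, 1 - a ≤ x 0 → x 0 ≤ 1 → v x = 1 * x 0 + (a - 1) := by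
    intro x h1 h2
    simp only [hv]
    rw [max_eq_left (by linarith), max_eq_right (by linarith)]
    ring
  have hr : ∀ x : Ed 1, 1 ≤ x 0 → v x = a * x 0 := by
    intro x h1
    simp only [hv]
    rw [max_eq_left (by linarith), max_eq_left (by linarith)]
    ring
  have hl : ∀ x : Ed 1, x 0 ≤ 1 - a → v x = 0 := by
    intro x h1
    simp only [hv]
    rw [max_eq_right (by linarith), max_eq_right (by linarith)]
    ring
  have hv0 : ∀ x : Ed 1, 0 ≤ v x := by
    intro x
    rcases le_total (x 0) (1 - a) with h1 | h1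
    · rw [hl x h1]
    · rcases le_total (x 0) 1 with h2 | h2
      · rw [hin x h1 h2]
        linarith
      · rw [hr x h2]
        nlinarith
  have hvL : LocallyLipschitz v := by
    have h1 : LocallyLipschitz fun x : Ed 1 => max (x 0 - 1) 0 := by
      have : ContDiff ℝ 1 fun x : Ed 1 => x 0 - 1 := by fun_prop
      exact this.locallyLipschitz.max_const 0
    have h2 : LocallyLipschitz fun x : Ed 1 => max (x 0 - 1 + a) 0 := by
      have : ContDiff ℝ 1 fun x : Ed 1 => x 0 - 1 + a := by fun_prop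
      exact this.locallyLipschitz.max_const 0
    have h3 : LocallyLipschitz fun t : ℝ × ℝ => t.1 + (a - 1) * t.2 := by
      have : ContDiff ℝ 1 fun t : ℝ × ℝ => t.1 + (a - 1) * t.2 := by fun_prop
      exact this.locallyLipschitz
    exact h3.comp (h2.prodMk h1)
  have hK := energy_loc h hm (isCompact_closedBall (0 : Ed 1) (1 + a)) hvL hv0 (by
    intro x hx
    rw [mem_closedBall_zero_iff, norm1, not_le, lt_abs] at hx
    rcases hx with hx | hx
    · rw [hr x (by linarith), hup x (by linarith)]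
    · rw [hl x (by linarith), hdn x (by linarith)])
  have hlow : ENNReal.ofReal ((a ^ 2 + 1) * (1 + a)) ≤ energy u (Metric.closedBall 0 (1 + a)) := by
    have e1 : ∫⁻ x in slab 0 (1 + a), gd u x = ENNReal.ofReal ((a ^ 2 + 1) * (1 + a)) := by
      rw [lint_slab (c := a ^ 2 + 1), sub_zero, ENNReal.ofReal_mul (by positivity)]
      intro x hx
      refine gd_aff (β := 0) ?_ ?_
      · filter_upwards [(slab_open 0 (1 + a)).mem_nhds hx] with y hy
        rw [hup y hy.1, add_zero]
      · rw [hup x hx.1]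
        exact mul_pos ha0 hx.1
    rw [← e1, energy_gd]
    refine lintegral_mono_set ?_
    intro x hx
    rw [mem_closedBall_zero_iff, norm1, abs_le]
    exact ⟨by linarith [hx.1], hx.2.le⟩
  have hupp : energy v (Metric.closedBall 0 (1 + a)) ≤
      ENNReal.ofReal (2 * a) + ENNReal.ofReal ((a ^ 2 + 1) * a) := by
    have e1 : ∫⁻ x in slab (1 - a) 1, gd v x = ENNReal.ofReal (2 * a) := by
      rw [lint_slab (c := 1 ^ 2 + 1), ← ENNReal.ofReal_mul (by norm_num)]
      · congr 1
        ring
      · intro x hx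
        refine gd_aff (β := a - 1) ?_ ?_
        · filter_upwards [(slab_open (1 - a) 1).mem_nhds hx] with y hy
          exact hin y hy.1.le hy.2.le
        · rw [hin x hx.1.le hx.2.le]
          linarith [hx.1]
    have e2 : ∫⁻ x in slab 1 (1 + a), gd v x = ENNReal.ofReal ((a ^ 2 + 1) * a) := by
      rw [lint_slab (c := a ^ 2 + 1), ← ENNReal.ofReal_mul (by positivity)]
      · congr 1
        ring
      · intro x hx
        refine gd_aff (β := 0) ?_ ?_
        · filter_upwards [(slab_open 1 (1 + a)).mem_nhds hx] with y hy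
          rw [hr y hy.1.le, add_zero]
        · rw [hr x hx.1.le]
          exact mul_pos ha0 (by linarith [hx.1])
    have hZm : MeasurableSet {x : Ed 1 | x 0 ≤ 1 - a} := by
      have h : Continuous fun x : Ed 1 => x 0 := by fun_prop
      exact (isClosed_le h continuous_const).measurableSet
    have e3 : ∫⁻ x in {x : Ed 1 | x 0 ≤ 1 - a}, gd v x = 0 := by
      rw [setLIntegral_congr_fun hZm (g := fun _ => 0) fun x hx => gd_zero hv0 (hl x hx)]
      simp
    have hN : volume ({x : Ed 1 | x 0 = 1} ∪ {x : Ed 1 | x 0 = 1 + a}) = 0 :=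
      measure_union_null (vol_pt 1) (vol_pt (1 + a))
    have hsub : Metric.closedBall (0 : Ed 1) (1 + a) ⊆ (slab (1 - a) 1 ∪ slab 1 (1 + a)) ∪
        ({x : Ed 1 | x 0 ≤ 1 - a} ∪ ({x : Ed 1 | x 0 = 1} ∪ {x : Ed 1 | x 0 = 1 + a})) := by
      intro x hx
      rw [mem_closedBall_zero_iff, norm1, abs_le] at hx
      rcases le_or_gt (x 0) (1 - a) with h1 | h1
      · exact Or.inr (Or.inl h1)
      · rcases lt_trichotomy (x 0) 1 with h2 | h2 | h2
        · exact Or.inl (Or.inl ⟨h1, h2⟩)
        · exact Or.inr (Or.inr (Or.inl h2))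
        · rcases hx.2.lt_or_eq with h3 | h3
          · exact Or.inl (Or.inr ⟨h2, h3⟩)
          · exact Or.inr (Or.inr (Or.inr h3))
    rw [energy_gd, ← e1, ← e2]
    refine (lintegral_mono_set hsub).trans ((lintegral_union_le _ _ _).trans ?_)
    refine (add_le_add (lintegral_union_le _ _ _) (lintegral_union_le _ _ _)).trans ?_
    rw [e3, setLIntegral_measure_zero _ _ hN, add_zero, add_zero]
  have hfin := hlow.trans (hK.trans hupp)
  rw [← ENNReal.ofReal_add (by positivity) (by positivity),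
    ENNReal.ofReal_le_ofReal_iff (by positivity)] at hfin
  nlinarith [sq_nonneg (a - 1)]

end

end Vale.Agent.P098D3
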