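import Mathlib
import Vale.Agent.Lib.P098.Sta.Comp
import Vale.Agent.Lib.P098.Sta.Main
import Vale.Agent.Lib.P098.Sta.Fv4
import Vale.Agent.Lib.P098D3.One
import Vale.Agent.Lib.P098D3.Low

/-!
# P098: minimizers in dimensions at most five are flat
-/

open MeasureTheory Set Filter Topology
open scoped ContDiff ENNReal NNReal

namespace Vale.Agent.P098D3

open Vale.Agent.P098

section

variable {d : ℕ} {u w : Ed d → ℝ} {U : Set (Ed d)}

theorem gd_neg (v : Ed d → ℝ) (x : Ed d) : gd (fun x => v (-x)) x = gd v (-x) := by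
  unfold gd
  have h1 : ‖fderiv ℝ (fun x => v (-x)) x‖ = ‖fderiv ℝ v (-x)‖ := by
    have h2 := fderiv_comp_smul (𝕜 := ℝ) (f := v) (x := x) (-1 : ℝ)
    simp only [neg_smul, one_smul] at h2
    rw [h2, norm_neg]
  rw [h1]
  rfl

theorem energy_neg (v : Ed d → ℝ) (R : ℝ) :
    energy (fun x => v (-x)) (Metric.ball 0 R) = energy v (Metric.ball 0 R) := by
  simp only [energy_gd]
  have h := (Measure.measurePreserving_neg
    (volume : Measure (Ed d))).setLIntegral_comp_preimage_emb
    (MeasurableEquiv.neg (Ed d)).measurableEmbedding (gd v) (Metric.ball 0 R)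
  have e : (Neg.neg : Ed d → Ed d) ⁻¹' Metric.ball 0 R = Metric.ball 0 R := by
    ext x
    simp
  rw [e] at h
  rw [← h]
  exact setLIntegral_congr_fun Metric.isOpen_ball.measurableSet fun x _ => gd_neg v x

theorem lipMin_neg (hm : LipMin u) : LipMin (fun x => u (-x)) := by
  intro R v hv hv0 hs
  have hneg : LocallyLipschitz (fun x : Ed d => -x) :=
    ((contDiff_neg : ContDiff ℝ 1 (fun x : Ed d => -x))).locallyLipschitz
  have h1 := hm R (fun x => v (-x)) (hv.comp hneg) (fun x => hv0 _) (by
    have hc : IsClosed ((fun x : Ed d => -x) ⁻¹' tsupport fun x => v x - u (-x)) :=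
      (isClosed_tsupport _).preimage continuous_neg
    refine (closure_minimal (fun x hx => ?_) hc).trans ?_
    · refine subset_closure ?_
      intro h2
      apply hx
      have h3 : v (-x) - u (- -x) = 0 := h2
      rw [neg_neg] at h3
      exact h3
    · intro x hx
      have h4 := hs hx
      rw [mem_ball_zero_iff, norm_neg] at h4
      rwa [mem_ball_zero_iff])
  rw [energy_neg v R] at h1
  rw [energy_neg u R]
  exact h1

theorem cone0_neg (h : Cone0 u w U) :
    Cone0 (fun x => u (-x)) (fun x => w (-x)) ((fun x : Ed d => -x) ⁻¹' U) where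
  hom := by
    intro r hr x
    rw [← smul_neg, h.hom r hr]
  cont := h.cont.comp continuous_neg
  nonneg := fun x => h.nonneg _
  isOpen := h.isOpen.preimage continuous_neg
  sub := by
    rintro x ⟨hx, hx0⟩
    refine h.sub ⟨?_, fun h0 => hx0 ?_⟩
    · have hc : IsClosed ((fun x : Ed d => -x) ⁻¹' closure (Pos u)) :=
        isClosed_closure.preimage continuous_neg
      have hsub : Pos (fun x => u (-x)) ⊆ (fun x : Ed d => -x) ⁻¹' closure (Pos u) :=
        fun y hy => subset_closure (show 0 < u (-y) from hy)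
      exact (closure_minimal hsub hc) hx
    · have h1 : -x = 0 := h0
      exact neg_eq_zero.1 h1
  smooth := h.smooth.comp contDiff_neg.contDiffOn fun _ hx => hx
  eq := fun x hx => h.eq _ hx

end

theorem one_flat {u w : Ed 1 → ℝ} {U : Set (Ed 1)} (h : Cone0 u w U) (hm : LipMin u) :
    (∀ x, u x = 0) ∨ ∃ e : Ed 1, ‖e‖ = 1 ∧ ∀ x, u x = max (inner ℝ e x) 0 := by
  have hi : ∀ x : Ed 1, inner ℝ (EuclideanSpace.single 0 1 : Ed 1) x = x 0 := by
    intro x
    rw [EuclideanSpace.inner_single_left]
    simp
  have hn : ‖(EuclideanSpace.single 0 1 : Ed 1)‖ = 1 := by simp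
  rcases (h.nonneg (EuclideanSpace.single 0 1)).lt_or_eq with ha | ha
  · rcases (h.nonneg (-EuclideanSpace.single 0 1)).lt_or_eq with hb | hb
    · exact absurd (one_side h hm rfl rfl ha hb) id
    · right
      refine ⟨EuclideanSpace.single 0 1, hn, fun x => ?_⟩
      have h1 := one_slope h hm rfl hb.symm ha
      rw [hi]
      rcases lt_trichotomy (x 0) 0 with hx | hx | hx
      · rw [one_down h hx, ← hb, max_eq_right hx.le]
        ring
      · rw [one_zero h hx, hx, max_self]
      · rw [one_up h hx, h1, max_eq_left hx.le, one_mul]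
  · rcases (h.nonneg (-EuclideanSpace.single 0 1)).lt_or_eq with hb | hb
    · right
      refine ⟨-EuclideanSpace.single 0 1, by rw [norm_neg, hn], fun x => ?_⟩
      have h1 := one_slope (cone0_neg h) (lipMin_neg hm) rfl
        (by beta_reduce; rw [neg_neg]; exact ha.symm) hb
      rw [inner_neg_left, hi]
      rcases lt_trichotomy (x 0) 0 with hx | hx | hx
      · rw [one_down h hx, h1, max_eq_left (by linarith)]
        ring
      · rw [one_zero h hx, hx, neg_zero, max_self]
      · rw [one_up h hx, ← ha, max_eq_right (by linarith)]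
        ring
    · left
      intro x
      rcases lt_trichotomy (x 0) 0 with hx | hx | hx
      · rw [one_down h hx, ← hb]
        ring
      · exact one_zero h hx
      · rw [one_up h hx, ← ha]
        ring

/-- **minimizing cones in dimensions at most five are flat** -/
theorem min_flat {d : ℕ} (hd5 : d ≤ 5) {u w : Ed d → ℝ} {U : Set (Ed d)}
    (h : Cone0 u w U) (hm : LipMin u) :
    (∀ x, u x = 0) ∨ ∃ e : Ed d, ‖e‖ = 1 ∧ ∀ x, u x = max (inner ℝ e x) 0 := by
  rcases Nat.lt_or_ge d 2 with hd | hd
  · obtain rfl | rfl : d = 0 ∨ d = 1 := by omega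
    · left
      intro x
      rw [Subsingleton.elim x 0, h.zero]
    · exact one_flat h hm
  · exact stab_flat hd hd5 (h.smoothCone hm) (stab_of_min (h.smoothCone hm) hm)

end Vale.Agent.P098D3
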